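import Vale.Agent.P126.Defs

/-! Elementary facts on bodies, polars and covering numbers. -/

namespace Vale.Agent.P126

open scoped RealInnerProductSpace Pointwise Classical

variable {E : Type*} [NormedAddCommGroup E] [InnerProductSpace ℝ E]

theorem IsBody.exists_ball {K : Set E} (hK : IsBody K) :
    ∃ r > 0, Metric.closedBall (0 : E) r ⊆ K := by
  obtain ⟨hc, -, ⟨c, hci⟩, hs⟩ := hK
  obtain ⟨r, hr, hball⟩ := Metric.isOpen_iff.1 isOpen_interior c hci
  refine ⟨r / 2, by positivity, fun z hz => ?_⟩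
  rw [Metric.mem_closedBall, dist_zero_right] at hz
  have hm : ∀ w : E, ‖w‖ ≤ r / 2 → c + w ∈ K := fun w hw => interior_subset (hball (by
    rw [Metric.mem_ball, dist_self_add_left]; linarith))
  have h := hc (hm z hz) (hs _ (hm (-z) (by rwa [norm_neg])))
    (show (0 : ℝ) ≤ 1 / 2 by norm_num) (show (0 : ℝ) ≤ 1 / 2 by norm_num) (by norm_num)
  rw [show (1 / 2 : ℝ) • (c + z) + (1 / 2 : ℝ) • -(c + -z) = z by module] at h
  exact h

theorem IsBody.zero_mem {K : Set E} (hK : IsBody K) : (0 : E) ∈ K := by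
  obtain ⟨r, hr, h⟩ := hK.exists_ball
  exact h (Metric.mem_closedBall_self hr.le)

theorem IsBody.abs_inner_le {K : Set E} (hK : IsBody K) {x y : E} (hx : x ∈ K)
    (hy : y ∈ polar K) : |⟪x, y⟫| ≤ 1 := by
  have h1 := hy x hx
  have h2 := hy (-x) (hK.2.2.2 x hx)
  rw [inner_neg_left] at h2
  exact abs_le.2 ⟨by linarith, h1⟩

theorem IsBody.smul {K : Set E} (hK : IsBody K) {c : ℝ} (hc : c ≠ 0) : IsBody (c • K) := by
  obtain ⟨h1, h2, h3, h4⟩ := hK
  refine ⟨h1.smul c, h2.smul c, ?_, ?_⟩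
  · rw [interior_smul₀ hc]; exact h3.smul_set
  · intro x hx
    obtain ⟨y, hy, rfl⟩ := Set.mem_smul_set.1 hx
    exact Set.mem_smul_set.2 ⟨-y, h4 y hy, smul_neg c y⟩

theorem polar_smul {K : Set E} {c : ℝ} (hc : c ≠ 0) : polar (c • K) = c⁻¹ • polar K := by
  ext y
  rw [Set.mem_inv_smul_set_iff₀ hc]
  constructor
  · intro h x hx
    rw [real_inner_smul_right, ← real_inner_smul_left]
    exact h _ (Set.smul_mem_smul_set hx)
  · intro h x hx
    obtain ⟨z, hz, rfl⟩ := Set.mem_smul_set.1 hx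
    rw [real_inner_smul_left, ← real_inner_smul_right]
    exact h z hz

variable [FiniteDimensional ℝ E]

theorem IsBody.isBody_polar {K : Set E} (hK : IsBody K) : IsBody (polar K) := by
  refine ⟨?_, ?_, ?_, ?_⟩
  · intro y hy y' hy' a b ha hb hab x hx
    rw [inner_add_right, real_inner_smul_right, real_inner_smul_right]
    have h1 := mul_le_mul_of_nonneg_left (hy x hx) ha
    have h2 := mul_le_mul_of_nonneg_left (hy' x hx) hb
    linarith
  · have : ProperSpace E := FiniteDimensional.proper_real E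
    refine Metric.isCompact_of_isClosed_isBounded ?_ ?_
    · have : polar K = ⋂ x ∈ K, {y | ⟪x, y⟫ ≤ 1} := by ext y; simp [polar]
      rw [this]
      exact isClosed_biInter fun x _ =>
        isClosed_le (continuous_const.inner continuous_id) continuous_const
    · obtain ⟨r, hr, hball⟩ := hK.exists_ball
      refine (isBounded_iff_forall_norm_le).2 ⟨1 / r, fun y hy => ?_⟩
      by_cases hy0 : y = 0
      · rw [hy0, norm_zero]; positivity
      have hn : 0 < ‖y‖ := norm_pos_iff.2 hy0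
      have hm : (r / ‖y‖) • y ∈ K := hball (by
        rw [Metric.mem_closedBall, dist_zero_right, norm_smul, Real.norm_eq_abs,
          abs_of_pos (by positivity), div_mul_cancel₀ _ hn.ne'])
      have h := hy _ hm
      rw [real_inner_smul_left, real_inner_self_eq_norm_sq] at h
      rw [le_div_iff₀ hr]
      calc ‖y‖ * r = r / ‖y‖ * ‖y‖ ^ 2 := by field_simp
        _ ≤ 1 := h
  · obtain ⟨R, hR⟩ := (isBounded_iff_forall_norm_le).1 hK.2.1.isBounded
    refine ⟨0, mem_interior.2 ⟨Metric.ball 0 (1 / (|R| + 1)), fun y hy x hx => ?_,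
      Metric.isOpen_ball, Metric.mem_ball_self (by positivity)⟩⟩
    rw [Metric.mem_ball, dist_zero_right, lt_div_iff₀ (by positivity)] at hy
    refine (real_inner_le_norm x y).trans ?_
    have := mul_le_mul_of_nonneg_right ((hR x hx).trans (le_abs_self R)) (norm_nonneg y)
    linarith [norm_nonneg y]
  · intro y hy x hx
    have := hy (-x) (hK.2.2.2 x hx)
    rwa [inner_neg_left, ← inner_neg_right] at this

/-- A point outside a body is separated from it by a point of the polar. -/
theorem IsBody.exists_sep {K : Set E} (hK : IsBody K) {z : E} (hz : z ∉ K) :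
    ∃ y ∈ polar K, 1 < ⟪z, y⟫ := by
  obtain ⟨f, u, hu, huz⟩ := geometric_hahn_banach_closed_point hK.1 hK.2.1.isClosed hz
  have hu0 : 0 < u := by simpa using hu 0 hK.zero_mem
  refine ⟨u⁻¹ • (InnerProductSpace.toDual ℝ E).symm f, fun x hx => ?_, ?_⟩
  · rw [real_inner_smul_right, real_inner_comm, InnerProductSpace.toDual_symm_apply,
      inv_mul_le_iff₀ hu0, mul_one]
    exact (hu x hx).le
  · rw [real_inner_smul_right, real_inner_comm, InnerProductSpace.toDual_symm_apply,
      lt_inv_mul_iff₀ hu0, mul_one]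
    exact huz

theorem IsBody.polar_polar {K : Set E} (hK : IsBody K) : polar (polar K) = K := by
  ext x
  constructor
  · intro hx
    by_contra hxK
    obtain ⟨y, hy, hlt⟩ := hK.exists_sep hxK
    have := hx y hy
    rw [real_inner_comm] at this
    linarith
  · intro hx y hy
    rw [real_inner_comm]
    exact hy x hx

theorem exists_covers {A B : Set E} (hA : IsCompact A) (hB : IsBody B) :
    ∃ t : Finset E, Covers A B t := by
  obtain ⟨r, hr, hball⟩ := hB.exists_ball
  obtain ⟨s, -, hfin, hs⟩ := hA.finite_cover_balls hr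
  refine ⟨hfin.toFinset, fun z hz => ?_⟩
  obtain ⟨x, hx, hzx⟩ := Set.mem_iUnion₂.1 (hs hz)
  refine ⟨x, hfin.mem_toFinset.2 hx, hball ?_⟩
  rw [Metric.mem_closedBall, dist_zero_right, ← dist_eq_norm]
  exact (Metric.mem_ball.1 hzx).le

theorem exists_covers_card {A B : Set E} (hA : IsCompact A) (hB : IsBody B) :
    ∃ t : Finset E, t.card = covNum A B ∧ Covers A B t := by
  obtain ⟨t, ht⟩ := exists_covers hA hB
  exact Nat.sInf_mem (s := {m | ∃ t : Finset E, t.card = m ∧ Covers A B t}) ⟨t.card, t, rfl, ht⟩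

omit [InnerProductSpace ℝ E] [FiniteDimensional ℝ E] in
theorem covNum_le {A B : Set E} {t : Finset E} (ht : Covers A B t) : covNum A B ≤ t.card :=
  Nat.sInf_le ⟨t, rfl, ht⟩

theorem one_le_covNum {A B : Set E} (hA : IsCompact A) (hA0 : A.Nonempty) (hB : IsBody B) :
    1 ≤ covNum A B := by
  obtain ⟨t, ht, hcov⟩ := exists_covers_card hA hB
  obtain ⟨z, hz⟩ := hA0
  obtain ⟨x, hx, -⟩ := hcov z hz
  rw [← ht]
  exact Finset.card_pos.2 ⟨x, hx⟩

theorem covNum_smul {A B : Set E} (hA : IsCompact A) (hB : IsBody B) {c : ℝ} (hc : c ≠ 0) :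
    covNum (c • A) (c • B) = covNum A B := by
  have key : ∀ {A B : Set E} {c : ℝ}, IsCompact A → IsBody B → c ≠ 0 →
      covNum (c • A) (c • B) ≤ covNum A B := by
    intro A B c hA hB hc
    obtain ⟨t, ht, hcov⟩ := exists_covers_card hA hB
    refine le_trans (covNum_le (t := t.image (c • ·)) ?_) (Finset.card_image_le.trans ht.le)
    intro z hz
    obtain ⟨w, hw, rfl⟩ := Set.mem_smul_set.1 hz
    obtain ⟨x, hx, hwx⟩ := hcov w hw
    exact ⟨c • x, Finset.mem_image_of_mem _ hx, by
      rw [← smul_sub]; exact Set.smul_mem_smul_set hwx⟩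
  refine le_antisymm (key hA hB hc) ?_
  have h := key (A := c • A) (B := c • B) (hA.smul c) (hB.smul hc) (inv_ne_zero hc)
  rwa [inv_smul_smul₀ hc, inv_smul_smul₀ hc] at h

omit [InnerProductSpace ℝ E] [FiniteDimensional ℝ E] in
/-- A maximal separated finite subset of `A` exists once their cardinalities are bounded. -/
theorem exists_maximal {A : Set E} (R : E → E → Prop) (hsymm : ∀ u v, R u v → R v u)
    (hirr : ∀ u, ¬ R u u) (N : ℕ)
    (hN : ∀ P : Finset E, ↑P ⊆ A → (∀ u ∈ P, ∀ v ∈ P, u ≠ v → R u v) → P.card ≤ N) :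
    ∃ P : Finset E, ↑P ⊆ A ∧ (∀ u ∈ P, ∀ v ∈ P, u ≠ v → R u v) ∧
      ∀ z ∈ A, ∃ p ∈ P, ¬ R z p := by
  let S : Set ℕ := {m | ∃ P : Finset E, P.card = m ∧ ↑P ⊆ A ∧
    ∀ u ∈ P, ∀ v ∈ P, u ≠ v → R u v}
  have hb : BddAbove S := ⟨N, fun m hm => by
    obtain ⟨P, rfl, h1, h2⟩ := hm; exact hN P h1 h2⟩
  obtain ⟨P, hP, h1, h2⟩ :=
    Nat.sSup_mem (⟨0, ∅, rfl, by simp, by simp⟩ : S.Nonempty) hb
  refine ⟨P, h1, h2, fun z hz => ?_⟩
  by_contra hc
  push Not at hc
  have hzP : z ∉ P := fun h => hirr z (hc z h)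
  have hle : (insert z P).card ≤ sSup S := le_csSup hb ⟨insert z P, rfl, by
    rw [Finset.coe_insert]; exact Set.insert_subset hz h1, fun u hu v hv huv => by
    rcases Finset.mem_insert.1 hu with hue | huP
    · subst hue
      rcases Finset.mem_insert.1 hv with hve | hvP
      · exact absurd hve.symm huv
      · exact hc v hvP
    · rcases Finset.mem_insert.1 hv with hve | hvP
      · subst hve; exact hsymm _ _ (hc u huP)
      · exact h2 u huP v hvP huv⟩
  rw [Finset.card_insert_of_notMem hzP] at hle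
  omega

/-- Points no two of which share a translate are at most as many as the translates. -/
theorem card_le_covers {A B : Set E} {R : E → E → Prop} {t : Finset E} (ht : Covers A B t)
    (hR : ∀ u v c, u - c ∈ B → v - c ∈ B → u ∈ A → v ∈ A → ¬ R u v) {P : Finset E}
    (hP : ↑P ⊆ A) (hsep : ∀ u ∈ P, ∀ v ∈ P, u ≠ v → R u v) : P.card ≤ t.card := by
  choose! g hg1 hg2 using ht
  refine Finset.card_le_card_of_injOn g (fun u hu => hg1 u (hP hu)) fun u hu v hv he => ?_
  by_contra hne
  exact hR u v (g u) (hg2 u (hP hu)) (he ▸ hg2 v (hP hv)) (hP hu) (hP hv) (hsep u hu v hv hne)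

end Vale.Agent.P126
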