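import Mathlib

/-!
The bounded step of the quadratic duality of metric entropy: if `|⟪x, y⟫| ≤ 1` on `A × F`,
then separated subsets of `A` are controlled by a net of `F`.
-/

namespace Vale.Agent.P126

open Finset
open scoped RealInnerProductSpace Pointwise Classical

variable {E : Type*} [NormedAddCommGroup E] [InnerProductSpace ℝ E]

/-- The level of `x` in the direction `y`, in steps of `1/10`. -/
noncomputable def lev (x y : E) : ℤ := ⌊(⟪x, y⟫ + 1) * 10⌋

/-- `P` carries a separated binary tree of depth `T` with directions in `Q`. -/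
def Sh (Q : Finset E) : ℕ → Finset E → Prop
  | 0, P => P.Nonempty
  | T + 1, P => ∃ y ∈ Q, ∃ l : ℤ,
      Sh Q T (P.filter (fun x => lev x y ≤ l)) ∧ Sh Q T (P.filter (fun x => l + 2 ≤ lev x y))

theorem Sh.mono {Q : Finset E} : ∀ {T : ℕ} {P P' : Finset E}, Sh Q T P → P ⊆ P' → Sh Q T P'
  | 0, _, _, h, hs => Finset.Nonempty.mono hs h
  | _ + 1, _, _, ⟨y, hy, l, h1, h2⟩, hs =>
      ⟨y, hy, l, h1.mono (Finset.filter_subset_filter _ hs),
        h2.mono (Finset.filter_subset_filter _ hs)⟩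

/-- Without a tree of depth `T` a separated set is small. -/
theorem card_le_of_not_sh {Q : Finset E} : ∀ (T : ℕ) (P : Finset E),
    (∀ x ∈ P, ∀ y ∈ Q, lev x y ∈ Finset.Icc (0 : ℤ) 20) →
    (∀ x ∈ P, ∀ x' ∈ P, x ≠ x' → ∃ y ∈ Q, lev x y + 2 ≤ lev x' y ∨ lev x' y + 2 ≤ lev x y) →
    ¬ Sh Q T P → P.card ≤ (21 * Q.card + 1) ^ T
  | 0, P, _, _, h => by
      rw [Finset.not_nonempty_iff_eq_empty.1 h]; simp
  | T + 1, P, hr, hsep, h => by
      set bad := (Q ×ˢ Finset.Icc (0 : ℤ) 20).filter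
        (fun q => ¬ Sh Q T (P.filter (fun x => lev x q.1 = q.2))) with hbad
      set rest := P.filter (fun x => ∀ y ∈ Q, Sh Q T (P.filter (fun x' => lev x' y = lev x y)))
        with hrest
      have h1 : rest.card ≤ 1 := Finset.card_le_one.2 fun x hx x' hx' => by
        by_contra hne
        obtain ⟨hxP, hx⟩ := Finset.mem_filter.1 hx
        obtain ⟨hxP', hx'⟩ := Finset.mem_filter.1 hx'
        obtain ⟨y, hy, hl | hl⟩ := hsep x hxP x' hxP' hne
        · refine h ⟨y, hy, lev x y, (hx y hy).mono fun z hz => ?_, (hx' y hy).mono fun z hz => ?_⟩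
          · obtain ⟨hz, he⟩ := Finset.mem_filter.1 hz
            exact Finset.mem_filter.2 ⟨hz, he.le⟩
          · obtain ⟨hz, he⟩ := Finset.mem_filter.1 hz
            exact Finset.mem_filter.2 ⟨hz, by omega⟩
        · refine h ⟨y, hy, lev x' y, (hx' y hy).mono fun z hz => ?_, (hx y hy).mono fun z hz => ?_⟩
          · obtain ⟨hz, he⟩ := Finset.mem_filter.1 hz
            exact Finset.mem_filter.2 ⟨hz, he.le⟩
          · obtain ⟨hz, he⟩ := Finset.mem_filter.1 hz
            exact Finset.mem_filter.2 ⟨hz, by omega⟩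
      have hsub : P ⊆ rest ∪ bad.biUnion (fun q => P.filter (fun x => lev x q.1 = q.2)) := by
        intro x hx
        by_cases hg : ∀ y ∈ Q, Sh Q T (P.filter (fun x' => lev x' y = lev x y))
        · exact Finset.mem_union_left _ (Finset.mem_filter.2 ⟨hx, hg⟩)
        · push Not at hg
          obtain ⟨y, hy, hys⟩ := hg
          refine Finset.mem_union_right _ (Finset.mem_biUnion.2 ⟨(y, lev x y), ?_, ?_⟩)
          · exact Finset.mem_filter.2 ⟨Finset.mem_product.2 ⟨hy, hr x hx y hy⟩, hys⟩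
          · exact Finset.mem_filter.2 ⟨hx, rfl⟩
      have h2 : (bad.biUnion (fun q => P.filter (fun x => lev x q.1 = q.2))).card ≤
          bad.card * (21 * Q.card + 1) ^ T :=
        Finset.card_biUnion_le_card_mul _ _ _ fun q hq => card_le_of_not_sh T _
          (fun x hx => hr x (Finset.mem_filter.1 hx).1)
          (fun x hx x' hx' => hsep x (Finset.mem_filter.1 hx).1 x' (Finset.mem_filter.1 hx').1)
          (Finset.mem_filter.1 hq).2
      have h3 : bad.card ≤ 21 * Q.card := by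
        refine (Finset.card_filter_le _ _).trans ?_
        rw [Finset.card_product, Int.card_Icc]
        simp [mul_comm]
      have h4 := (Finset.card_le_card hsub).trans (Finset.card_union_le _ _)
      have h5 : 1 ≤ (21 * Q.card + 1) ^ T := Nat.one_le_pow _ _ (by omega)
      have h6 := Nat.mul_le_mul_right ((21 * Q.card + 1) ^ T) h3
      rw [pow_succ, Nat.mul_comm _ (21 * Q.card + 1), Nat.add_mul, Nat.one_mul]
      omega

/-- A tree gives martingale functionals, one for each branch. -/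
theorem branches {A F : Set E} (hF : Convex ℝ F) (hF0 : F.Nonempty)
    (hFs : ∀ y ∈ F, -y ∈ F) (hb : ∀ x ∈ A, ∀ y ∈ F, |⟪x, y⟫| ≤ 1)
    {Q : Finset E} (hQ : ↑Q ⊆ F) (lam : ℝ) : ∀ (T : ℕ) (P : Finset E), ↑P ⊆ A → Sh Q T P →
    ∃ (f : (Fin T → Bool) → E) (c : (Fin T → Bool) → ℝ) (x : (Fin T → Bool) → E),
      (∀ σ, x σ ∈ P) ∧ (∀ σ, f σ ∈ (T : ℝ) • F) ∧ (∀ σ, |c σ| ≤ 2 * T) ∧
      (∀ σ, (T : ℝ) / 20 ≤ ⟪x σ, f σ⟫ - c σ) ∧
      ∀ z ∈ A, ∑ σ, Real.exp (lam * (⟪z, f σ⟫ - c σ)) ≤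
        (2 * Real.exp (9 * lam ^ 2 / 2)) ^ T
  | 0, P, hP, ⟨x₀, hx₀⟩ => by
      refine ⟨fun _ => 0, fun _ => 0, fun _ => x₀, fun _ => hx₀, fun _ => ?_, by simp, by simp,
        fun z _ => by simp⟩
      rw [Nat.cast_zero, Set.zero_smul_set hF0]; rfl
  | T + 1, P, hP, ⟨y, hy, l, h0, h1⟩ => by
      obtain ⟨f0, c0, x0, hx0, hf0, hc0, hg0, he0⟩ := branches hF hF0 hFs hb hQ lam T _
        (fun z hz => hP (Finset.mem_filter.1 hz).1) h0
      obtain ⟨f1, c1, x1, hx1, hf1, hc1, hg1, he1⟩ := branches hF hF0 hFs hb hQ lam T _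
        (fun z hz => hP (Finset.mem_filter.1 hz).1) h1
      have hyF : y ∈ F := hQ hy
      set θ : ℝ := ((l : ℝ) + 3 / 2) / 10 - 1 with hθ
      have hlo : ∀ z ∈ P.filter (fun x => lev x y ≤ l), ⟪z, y⟫ ≤ θ - 1 / 20 := by
        intro z hz
        have h := Int.lt_floor_add_one ((⟪z, y⟫ + 1) * 10)
        have hl : ((lev z y : ℤ) : ℝ) ≤ (l : ℝ) := by
          exact_mod_cast (Finset.mem_filter.1 hz).2
        rw [lev] at hl
        rw [hθ]; linarith
      have hhi : ∀ z ∈ P.filter (fun x => l + 2 ≤ lev x y), θ + 1 / 20 ≤ ⟪z, y⟫ := by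
        intro z hz
        have h := Int.floor_le ((⟪z, y⟫ + 1) * 10)
        have hl : (l : ℝ) + 2 ≤ ((lev z y : ℤ) : ℝ) := by
          exact_mod_cast (Finset.mem_filter.1 hz).2
        rw [lev] at hl
        rw [hθ]; linarith
      have hθb : |θ| ≤ 2 := by
        let σ : Fin T → Bool := fun _ => true
        have a0 := hlo _ (hx0 σ)
        have a1 := hhi _ (hx1 σ)
        have b0 := abs_le.1 (hb _ (hP (Finset.mem_filter.1 (hx0 σ)).1) y hyF)
        have b1 := abs_le.1 (hb _ (hP (Finset.mem_filter.1 (hx1 σ)).1) y hyF)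
        rw [abs_le]; constructor <;> linarith
      refine ⟨fun σ => if σ 0 then y + f1 (Fin.tail σ) else -y + f0 (Fin.tail σ),
        fun σ => if σ 0 then θ + c1 (Fin.tail σ) else -θ + c0 (Fin.tail σ),
        fun σ => if σ 0 then x1 (Fin.tail σ) else x0 (Fin.tail σ), fun σ => ?_, fun σ => ?_,
        fun σ => ?_, fun σ => ?_, fun z hz => ?_⟩
      · dsimp only
        split_ifs
        · exact (Finset.mem_filter.1 (hx1 _)).1
        · exact (Finset.mem_filter.1 (hx0 _)).1
      · rw [Nat.cast_succ, add_comm (T : ℝ) 1, hF.add_smul zero_le_one (Nat.cast_nonneg _),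
          one_smul]
        dsimp only
        split_ifs
        · exact Set.add_mem_add hyF (hf1 _)
        · exact Set.add_mem_add (hFs y hyF) (hf0 _)
      · push_cast
        split_ifs
        · linarith [abs_add_le θ (c1 (Fin.tail σ)), hc1 (Fin.tail σ)]
        · linarith [abs_add_le (-θ) (c0 (Fin.tail σ)), abs_neg θ, hc0 (Fin.tail σ)]
      · push_cast
        split_ifs
        · have := hhi _ (hx1 (Fin.tail σ))
          rw [inner_add_right]
          linarith [hg1 (Fin.tail σ)]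
        · have := hlo _ (hx0 (Fin.tail σ))
          rw [inner_add_right, inner_neg_right]
          linarith [hg0 (Fin.tail σ)]
      · rw [← (Fin.consEquiv (fun _ => Bool)).sum_comp, Fintype.sum_prod_type, Fintype.sum_bool]
        simp only [Fin.consEquiv_apply, Fin.cons_zero, Fin.tail_cons, if_true,
          Bool.false_eq_true, if_false, inner_add_right, inner_neg_right]
        set u := ⟪z, y⟫ - θ with hu
        have e1 : ∀ σ, lam * (⟪z, y⟫ + ⟪z, f1 σ⟫ - (θ + c1 σ)) =
            lam * u + lam * (⟪z, f1 σ⟫ - c1 σ) := fun σ => by rw [hu]; ring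
        have e0 : ∀ σ, lam * (-⟪z, y⟫ + ⟪z, f0 σ⟫ - (-θ + c0 σ)) =
            -(lam * u) + lam * (⟪z, f0 σ⟫ - c0 σ) := fun σ => by rw [hu]; ring
        simp only [e1, e0, Real.exp_add, ← Finset.mul_sum]
        have hu3 : |u| ≤ 3 := (abs_sub _ _).trans (by linarith [hb z hz y hyF])
        have hc : Real.exp (lam * u) + Real.exp (-(lam * u)) ≤ 2 * Real.exp (9 * lam ^ 2 / 2) := by
          have h := Real.cosh_le_exp_half_sq (lam * u)
          rw [Real.cosh_eq] at h
          have : (lam * u) ^ 2 ≤ 9 * lam ^ 2 := by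
            rw [mul_pow, mul_comm (9 : ℝ)]
            refine mul_le_mul_of_nonneg_left ?_ (sq_nonneg _)
            have := sq_le_sq' (abs_le.1 hu3).1 (abs_le.1 hu3).2
            linarith
          have := Real.exp_le_exp.2 (show (lam * u) ^ 2 / 2 ≤ 9 * lam ^ 2 / 2 by linarith)
          linarith
        refine (add_le_add (mul_le_mul_of_nonneg_left (he1 z hz) (Real.exp_pos _).le)
          (mul_le_mul_of_nonneg_left (he0 z hz) (Real.exp_pos _).le)).trans ?_
        rw [← add_mul, pow_succ' (2 * Real.exp (9 * lam ^ 2 / 2)) T]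
        exact mul_le_mul_of_nonneg_right hc (pow_nonneg (mul_nonneg two_pos.le (Real.exp_pos _).le) _)

/-- A tree of depth `T` forces `T ≤ 460800 * log (321 * |Q|)`. -/
theorem depth_le {A F : Set E} (hF : Convex ℝ F) (hF0 : F.Nonempty)
    (hFs : ∀ y ∈ F, -y ∈ F) (hb : ∀ x ∈ A, ∀ y ∈ F, |⟪x, y⟫| ≤ 1)
    {Q : Finset E} (hQ : ↑Q ⊆ F)
    (hnet : ∀ y ∈ F, ∃ p ∈ Q, ∀ x ∈ A, |⟪x, y - p⟫| ≤ 1 / 64)
    {T : ℕ} {P : Finset E} (hP : ↑P ⊆ A) (h : Sh Q T P) :
    (T : ℝ) ≤ 460800 * Real.log (321 * Q.card) := by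
  obtain ⟨y0, hy0⟩ := hF0
  obtain ⟨p0, hp0, -⟩ := hnet y0 hy0
  have hQ1 : (1 : ℝ) ≤ Q.card := by exact_mod_cast Finset.card_pos.2 ⟨p0, hp0⟩
  rcases Nat.eq_zero_or_pos T with rfl | hT
  · rw [Nat.cast_zero]
    exact mul_nonneg (by norm_num) (Real.log_nonneg (by linarith))
  obtain ⟨f, c, x, hx, hf, hc, hg, he⟩ := branches hF ⟨y0, hy0⟩ hFs hb hQ (1 / 1440) T P hP h
  have hT' : (0 : ℝ) < T := by exact_mod_cast hT
  have hgF : ∀ σ, (1 / (T : ℝ)) • f σ ∈ F := fun σ => by
    obtain ⟨y, hy, e⟩ := Set.mem_smul_set.1 (hf σ)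
    rw [← e, smul_smul, one_div_mul_cancel hT'.ne', one_smul]; exact hy
  choose p hpQ hp using fun σ => hnet _ (hgF σ)
  let key : (Fin T → Bool) → E × ℤ := fun σ => (p σ, ⌊c σ / T * 80⌋)
  have hmaps : ∀ σ ∈ (univ : Finset (Fin T → Bool)),
      key σ ∈ Q ×ˢ Finset.Icc (-160 : ℤ) 160 := by
    intro σ _
    have h2 : |c σ / T| ≤ 2 := by rw [abs_div, Nat.abs_cast, div_le_iff₀ hT']; linarith [hc σ]
    have := abs_le.1 h2
    refine Finset.mem_product.2 ⟨hpQ σ, Finset.mem_Icc.2 ⟨Int.le_floor.2 ?_, ?_⟩⟩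
    · push_cast; linarith
    · exact Int.floor_le_iff.2 (by push_cast; linarith)
  set B : ℝ := 2 ^ T * Real.exp (-(T : ℝ) / 460800) with hB
  have hclass : ∀ k ∈ Q ×ˢ Finset.Icc (-160 : ℤ) 160,
      ((univ.filter (fun σ => key σ = k)).card : ℝ) ≤ B := by
    intro k _
    set S := univ.filter (fun σ => key σ = k) with hS
    rcases S.eq_empty_or_nonempty with h0 | ⟨τ, hτ⟩
    · rw [h0, Finset.card_empty, Nat.cast_zero, hB]; positivity
    have hlow : ∀ σ ∈ S, (T : ℝ) / 160 ≤ ⟪x τ, f σ⟫ - c σ := by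
      intro σ hσ
      have e : key σ = key τ := (Finset.mem_filter.1 hσ).2.trans (Finset.mem_filter.1 hτ).2.symm
      obtain ⟨e1, e2⟩ := Prod.mk.inj e
      have a1 := abs_le.1 (hp σ _ (hP (hx τ)))
      have a2 := abs_le.1 (hp τ _ (hP (hx τ)))
      rw [e1, inner_sub_right, real_inner_smul_right] at a1
      rw [inner_sub_right, real_inner_smul_right] at a2
      have a3 := Int.abs_sub_lt_one_of_floor_eq_floor e2
      rw [abs_lt] at a3
      have b : 1 / (T : ℝ) * ⟪x τ, f τ⟫ - c τ / T ≥ 1 / 20 := by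
        rw [ge_iff_le, one_div_mul_eq_div, div_sub_div_same, le_div_iff₀ hT']
        linarith [hg τ]
      have : 1 / 160 ≤ 1 / (T : ℝ) * ⟪x τ, f σ⟫ - c σ / T := by linarith
      rw [one_div_mul_eq_div, div_sub_div_same, le_div_iff₀ hT'] at this
      linarith
    have hsum : (S.card : ℝ) * Real.exp (1 / 1440 * ((T : ℝ) / 160)) ≤
        ∑ σ, Real.exp (1 / 1440 * (⟪x τ, f σ⟫ - c σ)) := by
      rw [← nsmul_eq_mul, ← Finset.sum_const]
      refine (Finset.sum_le_sum fun σ hσ => Real.exp_le_exp.2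
        (mul_le_mul_of_nonneg_left (hlow σ hσ) (by norm_num))).trans ?_
      exact Finset.sum_le_univ_sum_of_nonneg fun σ => (Real.exp_pos _).le
    have h2 := hsum.trans (he _ (hP (hx τ)))
    rw [mul_pow, ← Real.exp_nat_mul] at h2
    rw [← le_div_iff₀ (Real.exp_pos _), mul_div_assoc, ← Real.exp_sub] at h2
    refine h2.trans (le_of_eq ?_)
    rw [hB]; congr 2; ring
  have hcount : ((2 : ℝ) ^ T) ≤ ((Q ×ˢ Finset.Icc (-160 : ℤ) 160).card : ℝ) * B := by
    have h1 := Finset.card_eq_sum_card_fiberwise hmaps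
    have h2 : ((univ : Finset (Fin T → Bool)).card : ℝ) = 2 ^ T := by
      simp [Finset.card_univ, Fintype.card_fun]
    rw [← h2, h1, Nat.cast_sum]
    exact (Finset.sum_le_sum hclass).trans_eq (by rw [Finset.sum_const, nsmul_eq_mul])
  rw [Finset.card_product, Int.card_Icc, hB, show ((160 : ℤ) + 1 - -160).toNat = 321 from rfl,
    ← mul_assoc, mul_comm _ ((2 : ℝ) ^ T), mul_assoc] at hcount
  have h3 : 1 ≤ ((Q.card * 321 : ℕ) : ℝ) * Real.exp (-(T : ℝ) / 460800) :=
    (le_mul_iff_one_le_right (by positivity)).1 hcount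
  have h4 := Real.log_le_log one_pos h3
  rw [Real.log_one, Real.log_mul (by push_cast; positivity) (Real.exp_pos _).ne', Real.log_exp,
    Nat.cast_mul, mul_comm] at h4
  push_cast at h4
  linarith

/-- Separated subsets of `A` are controlled by the square of the entropy of `F`. -/
theorem bounded_step {A F : Set E} (hF : Convex ℝ F) (hF0 : F.Nonempty)
    (hFs : ∀ y ∈ F, -y ∈ F) (hb : ∀ x ∈ A, ∀ y ∈ F, |⟪x, y⟫| ≤ 1)
    {Q : Finset E} (hQ : ↑Q ⊆ F)
    (hnet : ∀ y ∈ F, ∃ p ∈ Q, ∀ x ∈ A, |⟪x, y - p⟫| ≤ 1 / 64)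
    {P : Finset E} (hP : ↑P ⊆ A)
    (hsep : ∀ x ∈ P, ∀ x' ∈ P, x ≠ x' → ∃ y ∈ F, 1 / 4 < ⟪x - x', y⟫) :
    Real.log P.card ≤ 30000000 * Real.log Q.card ^ 2 := by
  rcases le_or_gt P.card 1 with hP1 | hP1
  · have : Real.log P.card ≤ 0 := Real.log_nonpos (Nat.cast_nonneg _) (by exact_mod_cast hP1)
    have : 0 ≤ Real.log Q.card ^ 2 := sq_nonneg _
    linarith
  have hQ2 : 2 ≤ Q.card := by
    by_contra hlt
    obtain ⟨x, hx, x', hx', hne⟩ := Finset.one_lt_card.1 hP1
    obtain ⟨y, hy, hy4⟩ := hsep x hx x' hx' hne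
    obtain ⟨p, hp, hp'⟩ := hnet y hy
    obtain ⟨r, hr, hr'⟩ := hnet (-y) (hFs y hy)
    obtain rfl : r = p := Finset.card_le_one.1 (by omega) r hr p hp
    have a := abs_le.1 (hp' x (hP hx))
    have b := abs_le.1 (hr' x (hP hx))
    have a' := abs_le.1 (hp' x' (hP hx'))
    have b' := abs_le.1 (hr' x' (hP hx'))
    simp only [inner_sub_right, inner_neg_right] at a b a' b'
    rw [inner_sub_left] at hy4
    linarith
  have hr : ∀ x ∈ P, ∀ y ∈ Q, lev x y ∈ Finset.Icc (0 : ℤ) 20 := by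
    intro x hx y hy
    have := abs_le.1 (hb x (hP hx) y (hQ hy))
    refine Finset.mem_Icc.2 ⟨Int.floor_nonneg.2 (by linarith), ?_⟩
    exact Int.floor_le_iff.2 (by push_cast; linarith)
  have hsep' : ∀ x ∈ P, ∀ x' ∈ P, x ≠ x' →
      ∃ y ∈ Q, lev x y + 2 ≤ lev x' y ∨ lev x' y + 2 ≤ lev x y := by
    intro x hx x' hx' hne
    obtain ⟨y, hy, hy4⟩ := hsep x hx x' hx' hne
    obtain ⟨p, hp, hp'⟩ := hnet y hy
    refine ⟨p, hp, Or.inr ?_⟩
    have a := abs_le.1 (hp' x (hP hx))
    have a' := abs_le.1 (hp' x' (hP hx'))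
    simp only [inner_sub_right] at a a'
    rw [inner_sub_left] at hy4
    unfold lev
    rw [← Int.floor_add_intCast]
    exact Int.floor_le_floor (by push_cast; linarith)
  set q : ℝ := (Q.card : ℝ) with hq
  have hq2 : (2 : ℝ) ≤ q := by rw [hq]; exact_mod_cast hQ2
  have hl2 : Real.log 2 ≤ Real.log q := Real.log_le_log two_pos hq2
  have hl20 : (0.69 : ℝ) < Real.log 2 := by linarith [Real.log_two_gt_d9]
  set T : ℕ := ⌊460800 * Real.log (321 * q)⌋₊ + 1 with hT
  have hnot : ¬ Sh Q T P := fun h => by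
    have h1 := depth_le hF hF0 hFs hb hQ hnet hP h
    have h2 := Nat.lt_floor_add_one (460800 * Real.log (321 * q))
    rw [hT] at h1; push_cast at h1; rw [← hq] at h1
    linarith
  have hcard := card_le_of_not_sh T P hr hsep' hnot
  have h1 : Real.log P.card ≤ T * Real.log (21 * q + 1) := by
    rw [← Real.log_pow]
    refine Real.log_le_log (by exact_mod_cast (show 0 < P.card by omega)) ?_
    rw [hq]; exact_mod_cast hcard
  have h321 : Real.log (321 * q) ≤ 10 * Real.log q := by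
    calc Real.log (321 * q) ≤ Real.log (2 ^ 9 * q) :=
          Real.log_le_log (by positivity) (by norm_num; linarith)
      _ = 9 * Real.log 2 + Real.log q := by
          rw [Real.log_mul (by norm_num) (by positivity), Real.log_pow]; norm_num
      _ ≤ _ := by linarith
  have h21 : Real.log (21 * q + 1) ≤ 6 * Real.log q := by
    calc Real.log (21 * q + 1) ≤ Real.log (2 ^ 5 * q) :=
          Real.log_le_log (by positivity) (by norm_num; linarith)
      _ = 5 * Real.log 2 + Real.log q := by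
          rw [Real.log_mul (by norm_num) (by positivity), Real.log_pow]; norm_num
      _ ≤ _ := by linarith
  have hT' : (T : ℝ) ≤ 4700000 * Real.log q := by
    rw [hT]; push_cast
    have := Nat.floor_le (show 0 ≤ 460800 * Real.log (321 * q) from
      mul_nonneg (by norm_num) (Real.log_nonneg (by linarith)))
    linarith
  refine h1.trans ((mul_le_mul hT' h21 (Real.log_nonneg (by linarith)) (by linarith)).trans ?_)
  nlinarith [sq_nonneg (Real.log q)]

end Vale.Agent.P126
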