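import Mathlib

/-! Covering numbers and polars in `ℝ^n`. -/

namespace Vale.Agent.P126

open scoped RealInnerProductSpace

variable {E : Type*} [NormedAddCommGroup E] [InnerProductSpace ℝ E]

/-- An origin-symmetric convex body: convex, compact, with nonempty interior, and `K = -K`. -/
def IsBody (K : Set E) : Prop :=
  Convex ℝ K ∧ IsCompact K ∧ (interior K).Nonempty ∧ ∀ x ∈ K, -x ∈ K

/-- The polar body `{y | ⟪x, y⟫ ≤ 1 for all x ∈ K}`. -/
def polar (K : Set E) : Set E := {y | ∀ x ∈ K, ⟪x, y⟫ ≤ 1}

/-- The translates `x + B` with `x ∈ t` cover `A`. -/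
def Covers (A B : Set E) (t : Finset E) : Prop := ∀ z ∈ A, ∃ x ∈ t, z - x ∈ B

/-- The least number of translates of `B` whose union contains `A`. -/
noncomputable def covNum (A B : Set E) : ℕ :=
  sInf {m | ∃ t : Finset E, t.card = m ∧ Covers A B t}

end Vale.Agent.P126
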