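import Vale.Agent.P126.Basic
import Vale.Agent.P126.Bounded

/-! Scale decomposition and the quadratic duality inequality. -/

namespace Vale.Agent.P126

open Finset
open scoped RealInnerProductSpace Pointwise Classical

variable {E : Type*} [NormedAddCommGroup E] [InnerProductSpace ℝ E] [FiniteDimensional ℝ E]

theorem sum_range_ten (g : ℕ → ℝ) : ∀ M : ℕ,
    ∑ k ∈ range (10 * M), g k = ∑ r ∈ range 10, ∑ i ∈ range M, g (10 * i + r)
  | 0 => by simp
  | M + 1 => by
      rw [show 10 * (M + 1) = 10 * M + 10 by ring, Finset.sum_range_add, sum_range_ten g M,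
        ← Finset.sum_add_distrib]
      exact Finset.sum_congr rfl fun r _ => by rw [Finset.sum_range_succ]

/-- The part of `L` whose multiple by `2 ^ k` lies in `K`. -/
def piece (K L : Set E) (k : ℕ) : Set E := {x | x ∈ L ∧ (2 : ℝ) ^ k • x ∈ K}

/-- Separated families of points of `L°`, taken at scales ten apart, multiply. -/
theorem prod_nets_le {K L : Set E} (hK : IsBody K) (hL : IsBody L) (M r : ℕ)
    (Q : ℕ → Finset E) (hQ : ∀ k, ↑(Q k) ⊆ polar L)
    (hsep : ∀ k, ∀ y ∈ Q k, ∀ y' ∈ Q k, y ≠ y' → ∃ x ∈ piece K L k, 1 / 64 < |⟪x, y - y'⟫|) :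
    ∏ i : Fin M, (Q (10 * i + r)).card ≤ covNum (polar L) ((512 : ℝ)⁻¹ • polar K) := by
  obtain ⟨t, ht, hcov⟩ := exists_covers_card hL.isBody_polar.2.1
    (hK.isBody_polar.smul (show ((512 : ℝ)⁻¹) ≠ 0 by norm_num))
  set θ : ℝ := 1 / 1024 with hθ
  let z : (Fin M → E) → E := fun p => ∑ i : Fin M, (θ ^ (i : ℕ) / 2) • p i
  have hzmem : ∀ p ∈ Fintype.piFinset (fun i : Fin M => Q (10 * i + r)), z p ∈ polar L := by
    intro p hp x hx
    simp only [z, inner_sum, real_inner_smul_right]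
    calc ∑ i : Fin M, θ ^ (i : ℕ) / 2 * ⟪x, p i⟫ ≤ ∑ i : Fin M, θ ^ (i : ℕ) / 2 * 1 :=
          Finset.sum_le_sum fun i _ => mul_le_mul_of_nonneg_left
            (hQ _ (Fintype.mem_piFinset.1 hp i) x hx) (by positivity)
      _ = (∑ i ∈ Finset.Ico 0 M, θ ^ i) / 2 := by
          simp only [mul_one]
          rw [← Finset.sum_div, Fin.sum_univ_eq_sum_range (fun i => θ ^ i), Nat.Ico_zero_eq_range]
      _ ≤ (θ ^ 0 / (1 - θ)) / 2 :=
          div_le_div_of_nonneg_right (geom_sum_Ico_le_of_lt_one (by norm_num [hθ])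
            (by norm_num [hθ])) two_pos.le
      _ ≤ 1 := by norm_num [hθ]
  choose! g hg1 hg2 using hcov
  rw [← Fintype.card_piFinset, ← ht]
  refine Finset.card_le_card_of_injOn (fun p => g (z p)) (fun p hp => hg1 _ (hzmem p hp)) ?_
  intro p hp p' hp' he
  simp only at he
  by_contra hne
  have hD : (univ.filter (fun i : Fin M => p i ≠ p' i)).Nonempty := by
    obtain ⟨i, hi⟩ := Function.ne_iff.1 hne
    exact ⟨i, Finset.mem_filter.2 ⟨Finset.mem_univ _, hi⟩⟩
  set i0 := (univ.filter (fun i : Fin M => p i ≠ p' i)).min' hD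
  have hi0 : p i0 ≠ p' i0 := (Finset.mem_filter.1 (Finset.min'_mem _ hD)).2
  have hbefore : ∀ i, i < i0 → p i = p' i := fun i hi => by_contra fun hne' =>
    absurd (Finset.min'_le _ i (Finset.mem_filter.2 ⟨Finset.mem_univ _, hne'⟩)) (not_le.2 hi)
  obtain ⟨x, hxA, hx⟩ := hsep (10 * i0 + r) _ (Fintype.mem_piFinset.1 hp i0) _
    (Fintype.mem_piFinset.1 hp' i0) hi0
  set d : Fin M → ℝ := fun i => θ ^ (i : ℕ) * ⟪x, p i - p' i⟫ with hd
  have htail : |∑ i ∈ univ.erase i0, d i| ≤ 2 * (θ ^ ((i0 : ℕ) + 1) / (1 - θ)) := by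
    refine (Finset.abs_sum_le_sum_abs _ _).trans ?_
    have hb : ∀ i ∈ univ.erase i0, |d i| ≤ if (i0 : ℕ) < i then 2 * θ ^ (i : ℕ) else 0 := by
      intro i hi
      have hne' : i ≠ i0 := Finset.ne_of_mem_erase hi
      simp only [hd]
      rcases lt_or_gt_of_ne hne' with hlt | hgt
      · rw [hbefore i hlt, sub_self, inner_zero_right, mul_zero, abs_zero]
        split_ifs <;> positivity
      · rw [if_pos (show (i0 : ℕ) < i from hgt), abs_mul, abs_of_nonneg (by positivity : 0 ≤ θ ^ (i : ℕ)),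
          mul_comm 2 (θ ^ (i : ℕ))]
        refine mul_le_mul_of_nonneg_left ?_ (by positivity)
        rw [inner_sub_right]
        exact (abs_sub _ _).trans (by
          linarith [hL.abs_inner_le hxA.1 (hQ _ (Fintype.mem_piFinset.1 hp i)),
            hL.abs_inner_le hxA.1 (hQ _ (Fintype.mem_piFinset.1 hp' i))])
    refine (Finset.sum_le_sum hb).trans ?_
    refine (Finset.sum_le_univ_sum_of_nonneg fun i => by split_ifs <;> positivity).trans ?_
    rw [Fin.sum_univ_eq_sum_range (fun i => if (i0 : ℕ) < i then 2 * θ ^ i else 0),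
      ← Finset.sum_filter, ← Finset.mul_sum]
    refine mul_le_mul_of_nonneg_left (le_trans (le_of_eq (Finset.sum_congr ?_ fun _ _ => rfl))
      (geom_sum_Ico_le_of_lt_one (m := (i0 : ℕ) + 1) (n := M) (by norm_num [hθ])
        (by norm_num [hθ]))) two_pos.le
    ext i; simp only [Finset.mem_filter, Finset.mem_range, Finset.mem_Ico]; omega
  have hsum : ⟪x, z p - z p'⟫ = (d i0 + ∑ i ∈ univ.erase i0, d i) / 2 := by
    rw [Finset.add_sum_erase _ d (Finset.mem_univ i0), Finset.sum_div]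
    simp only [z, hd, ← Finset.sum_sub_distrib, ← smul_sub, inner_sum, real_inner_smul_right]
    exact Finset.sum_congr rfl fun i _ => by ring
  have hsmall : (2 : ℝ) ^ (10 * (i0 : ℕ) + r) * |⟪x, z p - z p'⟫| ≤ 1 / 256 := by
    obtain ⟨u, hu, hu'⟩ := Set.mem_smul_set.1 (hg2 _ (hzmem p hp))
    obtain ⟨v, hv, hv'⟩ := Set.mem_smul_set.1 (hg2 _ (hzmem p' hp'))
    have e : z p - z p' = (512 : ℝ)⁻¹ • u - (512 : ℝ)⁻¹ • v := by rw [hu', hv', he]; abel
    have a := hK.abs_inner_le hxA.2 hu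
    have b := hK.abs_inner_le hxA.2 hv
    have e2 : (2 : ℝ) ^ (10 * (i0 : ℕ) + r) * |⟪x, z p - z p'⟫| =
        (512 : ℝ)⁻¹ * |⟪(2 : ℝ) ^ (10 * (i0 : ℕ) + r) • x, u - v⟫| := by
      rw [e, ← smul_sub, real_inner_smul_right, real_inner_smul_left, abs_mul, abs_mul,
        abs_of_pos (show (0 : ℝ) < (512 : ℝ)⁻¹ by norm_num),
        abs_of_pos (show (0 : ℝ) < 2 ^ (10 * (i0 : ℕ) + r) by positivity)]
      ring
    rw [e2, inner_sub_right]
    have := abs_sub ⟪(2 : ℝ) ^ (10 * (i0 : ℕ) + r) • x, u⟫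
      ⟪(2 : ℝ) ^ (10 * (i0 : ℕ) + r) • x, v⟫
    linarith
  have hlow : θ ^ (i0 : ℕ) * (1 / 128) < |⟪x, z p - z p'⟫| * 2 := by
    rw [hsum, abs_div, abs_two, div_mul_cancel₀ _ two_ne_zero]
    have h0 : θ ^ (i0 : ℕ) * (1 / 64) < |d i0| := by
      simp only [hd, abs_mul, abs_of_nonneg (by positivity : 0 ≤ θ ^ (i0 : ℕ))]
      exact mul_lt_mul_of_pos_left hx (by positivity)
    have htri : |d i0| - |∑ i ∈ univ.erase i0, d i| ≤ |d i0 + ∑ i ∈ univ.erase i0, d i| := by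
      have h := abs_sub_abs_le_abs_sub (d i0) (-∑ i ∈ univ.erase i0, d i)
      rwa [abs_neg, sub_neg_eq_add] at h
    have h2 : 2 * (θ ^ ((i0 : ℕ) + 1) / (1 - θ)) ≤ θ ^ (i0 : ℕ) * (1 / 128) := by
      have h0' : (0 : ℝ) ≤ θ ^ (i0 : ℕ) := by positivity
      rw [pow_succ, show θ ^ (i0 : ℕ) * θ / (1 - θ) = θ ^ (i0 : ℕ) * (1 / 1023) by
        rw [mul_div_assoc]; norm_num [hθ]]
      linarith
    linarith
  have hpow : (1 : ℝ) ≤ 2 ^ (10 * (i0 : ℕ) + r) * θ ^ (i0 : ℕ) := by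
    rw [pow_add, pow_mul, mul_right_comm, ← mul_pow, hθ]
    norm_num
    exact one_le_pow₀ (by norm_num)
  have h3 := mul_lt_mul_of_pos_left hlow (show (0 : ℝ) < 2 ^ (10 * (i0 : ℕ) + r) by positivity)
  linarith

/-- `log N(K, L) ≤ C * log N(L°, K° / 512) ^ 2`. -/
theorem quadratic_duality {K L : Set E} (hK : IsBody K) (hL : IsBody L) :
    Real.log (covNum K L) ≤
      300000000 * Real.log (covNum (polar L) ((512 : ℝ)⁻¹ • polar K)) ^ 2 := by
  set H := Real.log (covNum (polar L) ((512 : ℝ)⁻¹ • polar K)) with hH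
  have hF := hL.isBody_polar
  -- maximal separated sets in the pieces and in the polar
  obtain ⟨tP, htP⟩ := exists_covers hL.2.1 (hL.smul (show ((8 : ℝ)⁻¹) ≠ 0 by norm_num))
  have hP : ∀ k, ∃ P : Finset E, ↑P ⊆ piece K L k ∧
      (∀ u ∈ P, ∀ v ∈ P, u ≠ v → (4 : ℝ) • (u - v) ∉ L) ∧
      ∀ z ∈ piece K L k, ∃ p ∈ P, ¬ ((4 : ℝ) • (z - p) ∉ L) := fun k =>
    exists_maximal (fun u v => (4 : ℝ) • (u - v) ∉ L)
      (fun u v h h' => h (by simpa [smul_sub] using hL.2.2.2 _ h'))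
      (fun u h => h (by simpa using hL.zero_mem)) tP.card
      (fun P h1 h2 => card_le_covers htP (fun u v c hu hv _ _ h => h (by
        obtain ⟨a, ha, ha'⟩ := Set.mem_smul_set.1 hu
        obtain ⟨b, hb, hb'⟩ := Set.mem_smul_set.1 hv
        have := hL.1 ha (hL.2.2.2 b hb) (show (0 : ℝ) ≤ 1 / 2 by norm_num)
          (show (0 : ℝ) ≤ 1 / 2 by norm_num) (by norm_num)
        rw [show u - v = (8 : ℝ)⁻¹ • a - (8 : ℝ)⁻¹ • b by rw [ha', hb']; abel]
        rwa [show (4 : ℝ) • ((8 : ℝ)⁻¹ • a - (8 : ℝ)⁻¹ • b) =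
          (1 / 2 : ℝ) • a + (1 / 2 : ℝ) • -b by module]))
        (fun u hu => (h1 hu).1) h2)
  choose P hPA hPsep hPmax using hP
  obtain ⟨R, hR⟩ := isBounded_iff_forall_norm_le.1 hL.2.1.isBounded
  set ρ : ℝ := 1 / (256 * (|R| + 1)) with hρ
  have hρ0 : 0 < ρ := by positivity
  obtain ⟨tQ, -, htQfin, htQ⟩ := hF.2.1.finite_cover_balls hρ0
  have hQ : ∀ k, ∃ Q : Finset E, ↑Q ⊆ polar L ∧
      (∀ u ∈ Q, ∀ v ∈ Q, u ≠ v → ∃ x ∈ piece K L k, 1 / 64 < |⟪x, u - v⟫|) ∧
      ∀ z ∈ polar L, ∃ p ∈ Q, ¬ ∃ x ∈ piece K L k, 1 / 64 < |⟪x, z - p⟫| := fun k =>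
    exists_maximal (fun u v => ∃ x ∈ piece K L k, 1 / 64 < |⟪x, u - v⟫|)
      (fun u v ⟨x, hx, h⟩ => ⟨x, hx, by
        rwa [← neg_sub, inner_neg_right, abs_neg]⟩)
      (fun u ⟨x, _, h⟩ => by rw [sub_self, inner_zero_right, abs_zero] at h; norm_num at h)
      htQfin.toFinset.card
      (fun Q h1 h2 => card_le_covers (A := polar L) (B := Metric.ball 0 ρ)
        (t := htQfin.toFinset) (fun z hz => by
          obtain ⟨c, hc, hzc⟩ := Set.mem_iUnion₂.1 (htQ hz)
          exact ⟨c, htQfin.mem_toFinset.2 hc, by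
            rwa [Metric.mem_ball, dist_zero_right, ← dist_eq_norm]⟩)
        (fun u v c hu hv _ _ ⟨x, hx, h⟩ => by
          rw [Metric.mem_ball, dist_zero_right] at hu hv
          have h1 : ‖u - v‖ ≤ 2 * ρ := by
            rw [show u - v = (u - c) - (v - c) by abel]
            linarith [norm_sub_le (u - c) (v - c)]
          have h2 := (abs_real_inner_le_norm x (u - v)).trans
            (mul_le_mul ((hR x hx.1).trans (le_abs_self R)) h1 (norm_nonneg _) (abs_nonneg _))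
          have h3 : |R| * (2 * ρ) ≤ 1 / 128 := by
            rw [hρ, mul_one_div, mul_div_assoc', div_le_div_iff₀ (by positivity) (by norm_num)]
            nlinarith [abs_nonneg R]
          linarith) h1 h2)
  choose Q hQF hQsep hQmax using hQ
  have hP0 : ∀ k, 0 < (P k).card := fun k => by
    obtain ⟨p, hp, -⟩ := hPmax k 0 ⟨hL.zero_mem, by rw [smul_zero]; exact hK.zero_mem⟩
    exact Finset.card_pos.2 ⟨p, hp⟩
  have hQ0 : ∀ k, 0 < (Q k).card := fun k => by
    obtain ⟨p, hp, -⟩ := hQmax k 0 hF.zero_mem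
    exact Finset.card_pos.2 ⟨p, hp⟩
  -- one scale
  have hstep : ∀ k, Real.log (P k).card ≤ 30000000 * Real.log (Q k).card ^ 2 := fun k =>
    bounded_step (A := piece K L k) (F := polar L) hF.1 ⟨0, hF.zero_mem⟩ hF.2.2.2
      (fun x hx y hy => hL.abs_inner_le hx.1 hy) (hQF k)
      (fun y hy => by
        obtain ⟨p, hp, hn⟩ := hQmax k y hy
        push Not at hn
        exact ⟨p, hp, hn⟩)
      (hPA k) (fun x hx x' hx' hne => by
        obtain ⟨y, hy, h1⟩ := hL.exists_sep (hPsep k x hx x' hx' hne)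
        rw [real_inner_smul_left] at h1
        exact ⟨y, hy, by linarith⟩)
  -- the scales
  obtain ⟨r₀, hr₀, hball⟩ := hL.exists_ball
  obtain ⟨R₀, hR₀⟩ := isBounded_iff_forall_norm_le.1 hK.2.1.isBounded
  obtain ⟨m, hm⟩ := pow_unbounded_of_one_lt (R₀ / r₀) (one_lt_two (α := ℝ))
  set M := m + 1 with hM
  have hdesc : ∀ j, j + 1 ≤ 10 * M → ∃ t : Finset E,
      t.card ≤ ∏ k ∈ Finset.Ico (10 * M - j) (10 * M), (P k).card ∧
      ∀ z ∈ K, ∃ c ∈ t, ((2 : ℝ) ^ (10 * M - 1 - j))⁻¹ • (z - c) ∈ L := by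
    intro j
    induction j with
    | zero =>
      intro _
      refine ⟨{0}, by simp, fun z hz => ⟨0, Finset.mem_singleton_self _, hball ?_⟩⟩
      rw [Metric.mem_closedBall, dist_zero_right, sub_zero, norm_smul, norm_inv, norm_pow,
        Real.norm_two, inv_mul_le_iff₀ (by positivity)]
      rw [div_lt_iff₀ hr₀] at hm
      have : (2 : ℝ) ^ m ≤ 2 ^ (10 * M - 1 - 0) := pow_le_pow_right₀ one_le_two (by omega)
      linarith [hR₀ z hz, mul_le_mul_of_nonneg_right this hr₀.le]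
    | succ j ih =>
      intro hj
      obtain ⟨t, ht, hcov⟩ := ih (by omega)
      obtain ⟨k, hk⟩ : ∃ k, 10 * M - 1 - j = k + 1 := ⟨10 * M - 2 - j, by omega⟩
      have hk' : 10 * M - 1 - (j + 1) = k := by omega
      let base : E → E := fun c =>
        if h : ∃ z ∈ K, ((2 : ℝ) ^ (k + 1))⁻¹ • (z - c) ∈ L then h.choose else 0
      refine ⟨(t ×ˢ P (k + 1)).image (fun cp => base cp.1 + (2 : ℝ) ^ (k + 2) • cp.2), ?_, ?_⟩
      · refine Finset.card_image_le.trans ?_
        rw [Finset.card_product, show 10 * M - (j + 1) = k + 1 by omega,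
          Finset.prod_eq_prod_Ico_succ_bot (show k + 1 < 10 * M by omega),
          show k + 1 + 1 = 10 * M - j by omega, mul_comm ((P (k + 1)).card)]
        exact Nat.mul_le_mul_right _ ht
      · intro z hz
        obtain ⟨c, hc, hzc⟩ := hcov z hz
        rw [hk] at hzc
        have hex : ∃ z ∈ K, ((2 : ℝ) ^ (k + 1))⁻¹ • (z - c) ∈ L := ⟨z, hz, hzc⟩
        have hb : base c = hex.choose := dif_pos hex
        obtain ⟨hbK, hbL⟩ := hex.choose_spec
        rw [← hb] at hbK hbL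
        have hxL := hL.1 hzc (hL.2.2.2 _ hbL) (show (0 : ℝ) ≤ 1 / 2 by norm_num)
          (show (0 : ℝ) ≤ 1 / 2 by norm_num) (by norm_num)
        set x := (1 / 2 : ℝ) • ((2 : ℝ) ^ (k + 1))⁻¹ • (z - c) +
          (1 / 2 : ℝ) • -(((2 : ℝ) ^ (k + 1))⁻¹ • (base c - c)) with hxdef
        have h2 : ((2 : ℝ) ^ (k + 1)) ≠ 0 := pow_ne_zero _ two_ne_zero
        have hxe : (2 : ℝ) ^ (k + 1) • x = (1 / 2 : ℝ) • z + (1 / 2 : ℝ) • -base c := by
          rw [hxdef]; match_scalars <;> field_simp <;> ring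
        have hxK : (2 : ℝ) ^ (k + 1) • x ∈ K := by
          rw [hxe]
          exact hK.1 hz (hK.2.2.2 _ hbK) (by norm_num) (by norm_num) (by norm_num)
        obtain ⟨p, hp, hn⟩ := hPmax (k + 1) x ⟨hxL, hxK⟩
        refine ⟨base c + (2 : ℝ) ^ (k + 2) • p,
          Finset.mem_image.2 ⟨(c, p), Finset.mem_product.2 ⟨hc, hp⟩, rfl⟩, ?_⟩
        rw [hk']
        have e : ((2 : ℝ) ^ k)⁻¹ • (z - (base c + (2 : ℝ) ^ (k + 2) • p)) = (4 : ℝ) • (x - p) := by
          have hd : z - base c = (2 : ℝ) ^ (k + 2) • x := by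
            rw [pow_succ _ (k + 1), mul_comm, mul_smul, hxe]; module
          have hne : (2 : ℝ) ^ k ≠ 0 := pow_ne_zero _ two_ne_zero
          rw [← sub_sub, hd, ← smul_sub, smul_smul]
          congr 1
          rw [pow_add]; field_simp; norm_num
        rw [e]
        exact not_not.1 hn
  obtain ⟨t, ht, hcov⟩ := hdesc (10 * M - 1) (by omega)
  have hN : covNum K L ≤ ∏ k ∈ range (10 * M), (P k).card := by
    refine (covNum_le (t := t) fun z hz => ?_).trans (ht.trans ?_)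
    · obtain ⟨c, hc, h⟩ := hcov z hz
      rw [Nat.sub_self, pow_zero, inv_one, one_smul] at h
      exact ⟨c, hc, h⟩
    · rw [← Finset.prod_range_mul_prod_Ico _ (show 10 * M - (10 * M - 1) ≤ 10 * M by omega)]
      exact Nat.le_mul_of_pos_left _ (Finset.prod_pos fun k _ => hP0 k)
  have h1 : Real.log (covNum K L) ≤ ∑ k ∈ range (10 * M), Real.log (P k).card := by
    rw [← Real.log_prod (fun k _ => by exact_mod_cast (hP0 k).ne')]
    refine Real.log_le_log (Nat.cast_pos.2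
      (one_le_covNum hK.2.1 ⟨0, hK.zero_mem⟩ hL)) ?_
    exact_mod_cast hN
  refine h1.trans ((Finset.sum_le_sum fun k _ => hstep k).trans ?_)
  rw [sum_range_ten]
  have hres : ∀ r ∈ range 10,
      ∑ i ∈ range M, 30000000 * Real.log (Q (10 * i + r)).card ^ 2 ≤ 30000000 * H ^ 2 := by
    intro r _
    rw [← Finset.mul_sum]
    refine mul_le_mul_of_nonneg_left ?_ (by norm_num)
    refine (Finset.sum_sq_le_sq_sum_of_nonneg fun i _ => Real.log_natCast_nonneg _).trans ?_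
    refine pow_le_pow_left₀ (Finset.sum_nonneg fun i _ => Real.log_natCast_nonneg _) ?_ 2
    rw [← Fin.sum_univ_eq_sum_range (fun i => Real.log (Q (10 * i + r)).card),
      ← Real.log_prod (fun i _ => by exact_mod_cast (hQ0 _).ne'), hH]
    refine Real.log_le_log (Finset.prod_pos fun i _ => by exact_mod_cast hQ0 _) ?_
    exact_mod_cast prod_nets_le hK hL M r Q hQF hQsep
  refine (Finset.sum_le_sum hres).trans (le_of_eq ?_)
  rw [Finset.sum_const, Finset.card_range, nsmul_eq_mul]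
  push_cast; ring

end Vale.Agent.P126
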